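import Vale.Agent.Lib.P338.OneTapeMain

/-!
# P338: a quadratic lower bound for multiplication on one-tape Turing machines

Every deterministic Turing machine with a single tape that multiplies two `n`-bit
numbers needs at least `c * n ^ 2` steps, hence at least `c * n * log n` steps, on some
input of each large length `n`.  This is the case of machines with one tape in the
question of Schoenhage and Strassen.
-/

namespace Vale.Agent.Results.P338.OneTapeQuadratic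

open Vale.Agent.Lib.P338

theorem result : ∀ (Q Γ : Type) [Finite Q] (M : Machine Q Γ), M.zero ≠ M.one → M.Multiplies →
    ∃ c : ℝ, 0 < c ∧ ∃ N : ℕ, 2 ≤ N ∧ ∀ n : ℕ, N ≤ n → ∃ x y : Fin n → Bool, ∃ t : ℕ,
      M.MultipliesIn x y t ∧ c * (n : ℝ) ^ 2 ≤ (t : ℝ) ∧
        c * (n : ℝ) * Real.log (n : ℝ) ≤ (t : ℝ) := by
  intro Q Γ _ M h01 hM
  obtain ⟨C, hC, N, hN⟩ := one_tape_quadratic Q Γ M h01 hM
  have hC' : (0 : ℝ) < (C : ℝ) := by exact_mod_cast hC
  refine ⟨1 / (C : ℝ), by positivity, N + 2, by omega, ?_⟩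
  intro n hn
  obtain ⟨x, y, t, hmul, hle⟩ := hN n (by omega)
  have hle' : (n : ℝ) ^ 2 ≤ (C : ℝ) * (t : ℝ) := by exact_mod_cast hle
  have hsq : 1 / (C : ℝ) * (n : ℝ) ^ 2 ≤ (t : ℝ) := by
    rw [one_div, inv_mul_le_iff₀ hC']
    exact hle'
  refine ⟨x, y, t, hmul, hsq, le_trans ?_ hsq⟩
  have hn0 : (0 : ℝ) ≤ (n : ℝ) := Nat.cast_nonneg n
  have hlog : Real.log (n : ℝ) ≤ (n : ℝ) := Real.log_le_self hn0
  have hc0 : (0 : ℝ) ≤ 1 / (C : ℝ) * (n : ℝ) := by positivity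
  calc 1 / (C : ℝ) * (n : ℝ) * Real.log (n : ℝ) ≤ 1 / (C : ℝ) * (n : ℝ) * (n : ℝ) :=
        mul_le_mul_of_nonneg_left hlog hc0
    _ = 1 / (C : ℝ) * (n : ℝ) ^ 2 := by ring

end Vale.Agent.Results.P338.OneTapeQuadratic
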