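import Vale.Agent.Lib.P338.ChirpProof

/-!
# P338: matrix transposition by two cyclic convolutions with chirps

Let `n1 * n2 = 2 * m + 2` and let `K` be a field with a primitive root of unity `ζ` of order
`N = 2 * m + 1 = n1 * n2 - 1`.  If `a` lists the entries of an `n1 × n2` matrix `A` in
row-major order (entry `(i, j)` at the index `i * n2 + j`, read in `ZMod N`; the last entry
is left out), then the row-major listing of the transpose of `A` is, up to the invertible
factor `N`, the function `g3 * (g2' ⋆ (g2 * (g1 ⋆ a)))`, where `⋆` is the cyclic convolution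
on `ZMod N` and `g1, g2, g2', g3` are chirps that do not depend on `A`.  Each cyclic
convolution is one multiplication of integers by Kronecker substitution, so this is the
arithmetic core of a reduction of matrix transposition to integer multiplication.
-/

namespace Vale.Agent.Results.P338.TransposeChirp

open Vale.Agent.Lib.P338

theorem result : ∀ (n1 n2 m : ℕ) (K : Type) [Field K] (ζ : K), n1 * n2 = 2 * m + 2 →
    IsPrimitiveRoot ζ (2 * m + 1) →
    ((2 * m + 1 : ℕ) : K) ≠ 0 ∧
    ∀ (A : Matrix (Fin n1) (Fin n2) K) (a : ZMod (2 * m + 1) → K),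
      (∀ (i : Fin n1) (j : Fin n2), (i : ℕ) * n2 + (j : ℕ) < 2 * m + 1 →
        a (((i : ℕ) * n2 + (j : ℕ) : ℕ) : ZMod (2 * m + 1)) = A i j) →
      ∀ (j : Fin n2) (i : Fin n1), (j : ℕ) * n1 + (i : ℕ) < 2 * m + 1 →
        ((2 * m + 1 : ℕ) : K) * A.transpose j i =
          chirp ζ ((n2 : ZMod (2 * m + 1)) * (1 - (n2 : ZMod (2 * m + 1))))
              (((j : ℕ) * n1 + (i : ℕ) : ℕ) : ZMod (2 * m + 1)) *
            cconv (chirp ζ (-(n2 : ZMod (2 * m + 1))))
              (fun y => chirp ζ ((n2 : ZMod (2 * m + 1)) - 1) y * cconv (chirp ζ 1) a y)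
              (((j : ℕ) * n1 + (i : ℕ) : ℕ) : ZMod (2 * m + 1)) := by
  intro n1 n2 m K _ ζ hn hζ
  exact ⟨(hζ.neZero').ne, fun A a ha j i hji => transpose_chirp n1 n2 m K ζ hn hζ A a ha j i hji⟩

end Vale.Agent.Results.P338.TransposeChirp
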