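import Vale.Agent.Lib.P338.KronProof

/-!
# P338: matrix transposition by two integer multiplications

Let `n1 * n2 = 2 * m + 2`, `N = 2 * m + 1`, let `p` be a prime such that `ZMod p` has a
primitive root of unity of order `N`, and let `N * p ^ 2 < 2 ^ s`.  Then there are two fixed
natural numbers `G1, G2` of at most `s * (2 * N - 1)` bits and two fixed sequences `u, w` of
residues such that for every `n1 × n2` matrix `A` over `ZMod p`, listed in row-major order as
`a`, the row-major listing of the transpose of `A` is `mulStep G2 w (mulStep G1 u a)`: pack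
the listing into an integer with digits of `s` bits, multiply by `G1`, read off `N` digits of
the product and rescale them by `u`; then do the same with `G2` and `w`.
-/

namespace Vale.Agent.Results.P338.TransposeTwoProducts

open Vale.Agent.Lib.P338

theorem result : ∀ (n1 n2 m p s : ℕ) [Fact p.Prime] (ζ : ZMod p), n1 * n2 = 2 * m + 2 →
    IsPrimitiveRoot ζ (2 * m + 1) → (2 * m + 1) * p ^ 2 < 2 ^ s →
    ∃ (G1 G2 : ℕ) (u w : ℕ → ZMod p),
      G1 < 2 ^ (s * (4 * m + 1)) ∧ G2 < 2 ^ (s * (4 * m + 1)) ∧
      ∀ (A : Matrix (Fin n1) (Fin n2) (ZMod p)) (a : ℕ → ZMod p),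
        (∀ (i : Fin n1) (j : Fin n2), a ((i : ℕ) * n2 + (j : ℕ)) = A i j) →
        ∀ (j : Fin n2) (i : Fin n1), (j : ℕ) * n1 + (i : ℕ) < 2 * m + 1 →
          mulStep s (2 * m + 1) G2 w (mulStep s (2 * m + 1) G1 u a) ((j : ℕ) * n1 + (i : ℕ)) =
            A.transpose j i := by
  intro n1 n2 m p s _ ζ hn hζ hs
  exact transpose_two_products n1 n2 m p s ζ hn hζ hs

end Vale.Agent.Results.P338.TransposeTwoProducts
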